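import Vale.Agent.Lib.P015L.Path
import Vale.Agent.Lib.P015L.Poly

/-!
# P015: disks without Gaussian primes on every line and on every polynomial curve; an infinite path
with bounded steps does not stay at bounded distance from any line
-/

theorem Vale.Agent.Results.P015.AllLines.result :
    (∀ c u : ℂ, u ≠ 0 → ∀ R T : ℝ, ∃ t : ℝ, T ≤ t ∧
      ∀ z : GaussianInt, ‖(z : ℂ) - (c + t * u)‖ ≤ R → ¬ Irreducible z) ∧
    (∀ P Q : Polynomial ℤ, (0 < P.natDegree ∨ 0 < Q.natDegree) → ∀ (R : ℝ) (T : ℤ),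
      ∃ t : ℤ, T ≤ t ∧ ∀ z : GaussianInt,
        ‖(z : ℂ) - (((P.eval t : ℤ) : ℂ) + ((Q.eval t : ℤ) : ℂ) * Complex.I)‖ ≤ R →
          ¬ Irreducible z) ∧
    (∀ (D w : ℝ) (c u : ℂ), u ≠ 0 → ∀ z : ℕ → GaussianInt, (∀ n, Irreducible (z n)) →
      Function.Injective z → (∀ n, ‖(z (n + 1) : ℂ) - z n‖ ≤ D) →
        ¬ ∀ n, ∃ t : ℝ, ‖(z n : ℂ) - (c + t * u)‖ ≤ w) := by
  refine ⟨?_, ?_, ?_⟩
  · intro c u hu R T
    obtain ⟨t, ht, h⟩ := P015L.line_disk c u hu R T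
    exact ⟨t, ht, fun z hz hi => h z hz hi.prime⟩
  · intro P Q hPQ R T
    obtain ⟨t, ht, h⟩ := P015L.poly_disk P Q hPQ R T
    exact ⟨t, ht, fun z hz hi => h z hz hi.prime⟩
  · intro D w c u hu z hz hinj hstep
    exact P015L.no_strip_path D w c u hu z (fun n => (hz n).prime) hinj hstep
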