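import Vale.Agent.Lib.P015L.Inf

/-!
# P015: long paths of Gaussian primes with bounded steps are not straight, uniformly in all lines
-/

theorem Vale.Agent.Results.P015.BentPaths.result :
    (∀ R : ℝ, ∃ L ρ : ℝ, 0 < L ∧ ∀ c u : ℂ, ‖u‖ = 1 → ∃ t : ℝ, 0 ≤ t ∧ t ≤ L ∧
      ∀ z : GaussianInt, ‖(z : ℂ) - (c + t * u)‖ ≤ R → ρ < ‖(z : ℂ)‖ → ¬ Irreducible z) ∧
    (∀ D w : ℝ, ∃ (L : ℕ) (ρ : ℝ), ∀ z : ℕ → GaussianInt,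
      (∀ n ≤ L, Irreducible (z n)) → (∀ n ≤ L, ρ < ‖(z n : ℂ)‖) → Set.InjOn z (Set.Iic L) →
      (∀ n < L, ‖(z (n + 1) : ℂ) - z n‖ ≤ D) → ∀ c u : ℂ, ‖u‖ = 1 →
        ∃ n ≤ L, ∀ t : ℝ, w < ‖(z n : ℂ) - (c + t * u)‖) ∧
    (∀ D w : ℝ, ∃ L : ℕ, ∀ z : ℕ → GaussianInt, (∀ n, Irreducible (z n)) →
      Function.Injective z → (∀ n, ‖(z (n + 1) : ℂ) - z n‖ ≤ D) →
        ∃ n₀ : ℕ, ∀ m ≥ n₀, ∀ c u : ℂ, ‖u‖ = 1 →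
          ∃ n, m ≤ n ∧ n ≤ m + L ∧ ∀ t : ℝ, w < ‖(z n : ℂ) - (c + t * u)‖) :=
  ⟨P015L.seg, P015L.path_uniform, P015L.infinite_windows⟩
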