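import Mathlib
import Vale.Agent.Lib.P015.BlkG

/-!
P015: an infinite walk on Gaussian primes with bounded steps leaves the neighbourhood
`dist (z, ℓ) ≤ c √(log |z|)` of every line `ℓ` through two Gaussian integers.
-/

namespace Vale.Agent.Results.P015.EveryRationalLine

open Vale.Agent.P015 GaussianInt

/-- crossing a window -/
theorem crossing {u : ℕ → ℤ} {d : ℕ} (hstep : ∀ n, u (n + 1) ≤ u n + d) {a : ℤ} (h0 : u 0 < a)
    {n : ℕ} (hn : a ≤ u n) : ∃ k, a ≤ u k ∧ u k < a + d := by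
  classical
  have hex : ∃ k, a ≤ u k := ⟨n, hn⟩
  have h1 := Nat.find_spec hex
  have h2 : Nat.find hex ≠ 0 := by
    intro h
    rw [h] at h1
    omega
  obtain ⟨k, hk⟩ := Nat.exists_eq_succ_of_ne_zero h2
  have h3 : ¬ a ≤ u k := Nat.find_min hex (by omega)
  have h4 := hstep k
  refine ⟨Nat.find hex, h1, ?_⟩
  rw [hk]
  rw [Nat.succ_eq_add_one]
  omega

theorem one_le_norm {z : GaussianInt} (hz : z ≠ 0) : 1 ≤ ‖(z : ℂ)‖ := by
  have h1 : (1 : ℤ) ≤ z.norm := by
    have := norm_pos.2 hz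
    omega
  have h2 : (1 : ℝ) ≤ Complex.normSq (z : ℂ) := by
    rw [← intCast_real_norm]
    exact_mod_cast h1
  rw [Complex.normSq_eq_norm_sq] at h2
  nlinarith [norm_nonneg (z : ℂ)]

theorem sqrt_log_le {t : ℝ} (ht : 1 ≤ t) : Real.sqrt (Real.log t) ≤ t := by
  rw [Real.sqrt_le_left (by linarith)]
  have := Real.log_le_sub_one_of_pos (show 0 < t by linarith)
  nlinarith

theorem im_le_aux (z w v : ℂ) (hv0 : 0 < ‖v‖) (t : ℝ) :
    |((z - w) * (starRingEnd ℂ) v).im| / ‖v‖ ≤ dist z (w + t * v) := by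
  rw [div_le_iff₀ hv0, dist_eq_norm]
  have h1 : ((z - w) * (starRingEnd ℂ) v).im = ((z - (w + t * v)) * (starRingEnd ℂ) v).im := by
    have h2 : (z - (w + t * v)) * (starRingEnd ℂ) v =
        (z - w) * (starRingEnd ℂ) v - ((t * Complex.normSq v : ℝ) : ℂ) := by
      push_cast
      rw [← Complex.mul_conj]
      ring
    rw [h2, Complex.sub_im, Complex.ofReal_im, sub_zero]
  rw [h1]
  refine (Complex.abs_im_le_norm _).trans ?_
  rw [norm_mul, Complex.norm_conj]

/-- the imaginary part of `(z - w) conj v` is controlled by the distance to the line -/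
theorem im_le (z w v : ℂ) : |((z - w) * (starRingEnd ℂ) v).im| ≤
    ‖v‖ * Metric.infDist z (Set.range fun t : ℝ => w + t * v) := by
  rcases eq_or_ne v 0 with rfl | hv
  · simp
  have hv0 : 0 < ‖v‖ := norm_pos_iff.2 hv
  have h0 : |((z - w) * (starRingEnd ℂ) v).im| / ‖v‖ ≤
      Metric.infDist z (Set.range fun t : ℝ => w + t * v) := by
    rw [Metric.le_infDist (Set.range_nonempty _)]
    rintro _ ⟨t, rfl⟩
    exact im_le_aux z w v hv0 t
  rw [div_le_iff₀ hv0] at h0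
  linarith
theorem big_norm {M X V N R : ℝ} (hVN : V ^ 2 = N) (hV1 : 1 ≤ V) (h17 : M ≤ (X + R) * V)
    (hR0 : 0 ≤ R) (h20 : 2 * N * R + 4 * N + 1 ≤ M) : M < X ^ 2 := by
  by_contra hle
  rw [not_lt] at hle
  have hN1 : 1 ≤ N := by nlinarith
  have hVleN : V ≤ N := by
    rw [← hVN]
    nlinarith
  have h18 : R * V ≤ R * N := mul_le_mul_of_nonneg_left hVleN hR0
  have h24 : 0 < M := by nlinarith [mul_nonneg hR0 (show (0 : ℝ) ≤ N by linarith)]
  have h21 : M / 2 ≤ X * V := by nlinarith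
  have h22 : (M / 2) ^ 2 ≤ (X * V) ^ 2 := pow_le_pow_left₀ (by positivity) h21 2
  rw [mul_pow, hVN] at h22
  have h23 : X ^ 2 * N ≤ M * N := mul_le_mul_of_nonneg_right hle (by linarith)
  nlinarith [mul_nonneg hR0 (show (0 : ℝ) ≤ N by linarith)]

theorem log_bound {M N K : ℕ} {X : ℝ} (hM : M ≤ 2 ^ ((11 + 4 * N) * K ^ 2)) (h3 : X ≤ 16 * M)
    (hX : 1 ≤ X) (hM0 : 0 < M) (hK1 : (1 : ℝ) ≤ K) :
    Real.log X ≤ ((4 + 2 * N) * (K : ℝ)) ^ 2 := by
  have hN0 : (0 : ℝ) ≤ N := Nat.cast_nonneg _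
  have h6 : Real.log X ≤ Real.log (16 * M) := Real.log_le_log (by linarith) h3
  have h7 : Real.log (16 * M) ≤ Real.log (2 ^ ((11 + 4 * N) * K ^ 2 + 4)) := by
    apply Real.log_le_log (by positivity)
    have h8 : (M : ℝ) ≤ 2 ^ ((11 + 4 * N) * K ^ 2) := by exact_mod_cast hM
    rw [pow_add]
    linarith
  rw [Real.log_pow] at h7
  have h9 := Real.log_two_lt_d9
  have h9' : Real.log 2 ≤ 1 := by linarith
  have h10 : (((11 + 4 * N) * K ^ 2 + 4 : ℕ) : ℝ) * Real.log 2 ≤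
      (((11 + 4 * N) * K ^ 2 + 4 : ℕ) : ℝ) * 1 :=
    mul_le_mul_of_nonneg_left h9' (Nat.cast_nonneg _)
  have h11 : (((11 + 4 * N) * K ^ 2 + 4 : ℕ) : ℝ) ≤ ((4 + 2 * N) * (K : ℝ)) ^ 2 := by
    push_cast
    have hK2 : (1 : ℝ) ≤ (K : ℝ) ^ 2 := by nlinarith
    have h12 : ((4 + 2 * N) * (K : ℝ)) ^ 2 =
        (11 + 4 * N) * (K : ℝ) ^ 2 + (5 + 12 * N + 4 * N ^ 2) * (K : ℝ) ^ 2 := by ring
    rw [h12]
    have h13 : (4 : ℝ) ≤ 5 + 12 * N + 4 * N ^ 2 := by nlinarith
    nlinarith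
  linarith

theorem c_bound {V N d W K : ℝ} (hV : 0 < V) (hN : 0 ≤ N) (hd : 0 < d) (hW1 : 1 ≤ W)
    (hK : K = d * (2 * W + 1)) :
    1 / (3 * V * (4 + 2 * N) * d) * V * ((4 + 2 * N) * K) ≤ W := by
  have h12 : K ≤ d * (3 * W) := by
    rw [hK]
    apply mul_le_mul_of_nonneg_left (by linarith) hd.le
  have h13 : 1 / (3 * V * (4 + 2 * N) * d) * V * ((4 + 2 * N) * K) ≤
      1 / (3 * V * (4 + 2 * N) * d) * V * ((4 + 2 * N) * (d * (3 * W))) :=
    mul_le_mul_of_nonneg_left (mul_le_mul_of_nonneg_left h12 (by positivity)) (by positivity)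
  have h14 : 1 / (3 * V * (4 + 2 * N) * d) * V * ((4 + 2 * N) * (d * (3 * W))) = W := by
    have : (4 + 2 * N) ≠ 0 := by positivity
    field_simp
  linarith

theorem exists_window {u : ℕ → ℤ} {d M W : ℕ} {r : ℤ} (hre : ∀ n, |u (n + 1) - u n| ≤ d)
    (hu0 : |u 0| < W) (hWM : W ≤ M) (hdM : d ≤ M) (hr0 : 0 ≤ r) (hrM : r < M)
    (hunb : ∀ B : ℤ, ∃ n, B < |u n|) : ∃ (n : ℕ) (q : ℤ) (j : ℕ), j < d ∧
      u n = r + j + M * q ∧ (M : ℤ) ≤ |u n| ∧ |u n| ≤ 4 * M := by
  rw [abs_lt] at hu0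
  obtain ⟨n, hn⟩ := hunb (8 * M)
  rcases lt_or_ge (u n) 0 with hneg | hpos
  · rw [abs_of_neg hneg] at hn
    obtain ⟨k, hk1, hk2⟩ := crossing (u := fun n => -(u n)) (d := d)
      (fun n => by
        have := (abs_le.1 (hre n)).1
        omega) (a := 3 * M - r - d + 1) (by omega) (n := n) (by omega)
    obtain ⟨j, hj⟩ : ∃ j : ℕ, (j : ℤ) = u k - r + 3 * M :=
      ⟨(u k - r + 3 * M).toNat, Int.toNat_of_nonneg (by omega)⟩
    have h3 : u k < 0 := by omega
    refine ⟨k, -3, j, by omega, by rw [hj]; ring, ?_, ?_⟩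
    · rw [abs_of_neg h3]
      omega
    · rw [abs_of_neg h3]
      omega
  · rw [abs_of_nonneg hpos] at hn
    obtain ⟨k, hk1, hk2⟩ := crossing (u := fun n => u n) (d := d)
      (fun n => by
        have := (abs_le.1 (hre n)).2
        omega) (a := r + M) (by omega) (n := n) (by omega)
    obtain ⟨j, hj⟩ : ∃ j : ℕ, (j : ℤ) = u k - r - M :=
      ⟨(u k - r - M).toNat, Int.toNat_of_nonneg (by omega)⟩
    have h3 : 0 ≤ u k := by omega
    refine ⟨k, 1, j, by omega, by rw [hj]; ring, ?_, ?_⟩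
    · rw [abs_of_nonneg h3]
      omega
    · rw [abs_of_nonneg h3]
      omega

theorem finite_of_bounded {z : ℕ → GaussianInt} (hinj : Function.Injective z) (C : ℤ) :
    ¬ ∀ n, ‖((z n : GaussianInt) : ℂ)‖ ≤ C := by
  intro h
  have hfin : (Set.range z).Finite := by
    have h1 : Set.range z ⊆ (fun p : ℤ × ℤ => (⟨p.1, p.2⟩ : GaussianInt)) ''
        ((Set.Icc (-C) C) ×ˢ (Set.Icc (-C) C)) := by
      rintro _ ⟨n, rfl⟩
      refine ⟨((z n).re, (z n).im), ⟨?_, ?_⟩, rfl⟩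
      · have h3 := (Complex.abs_re_le_norm ((z n : GaussianInt) : ℂ)).trans (h n)
        rw [← intCast_re] at h3
        exact abs_le.1 (by exact_mod_cast h3)
      · have h3 := (Complex.abs_im_le_norm ((z n : GaussianInt) : ℂ)).trans (h n)
        rw [← intCast_im] at h3
        exact abs_le.1 (by exact_mod_cast h3)
    exact (((Set.finite_Icc _ _).prod (Set.finite_Icc _ _)).image _).subset h1
  exact Set.infinite_range_of_injective hinj hfin

/-- For every line `ℓ = {w + t v}` through two Gaussian integers and every step bound `D` there is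
`c > 0` such that every infinite path of `G_D` (an injective sequence of Gaussian primes whose
successive distances are at most `D`) has a point `z` with `dist (z, ℓ) > c √(log |z|)`. -/
theorem result (w v : GaussianInt) (hv : v ≠ 0) (D : ℝ) (hD : 0 < D) :
    ∃ c : ℝ, 0 < c ∧ ∀ z : ℕ → GaussianInt, Function.Injective z → (∀ n, Prime (z n)) →
      (∀ n, ‖((z (n + 1) : GaussianInt) : ℂ) - z n‖ ≤ D) →
      ∃ n, c * Real.sqrt (Real.log ‖((z n : GaussianInt) : ℂ)‖) <
        Metric.infDist ((z n : GaussianInt) : ℂ) (Set.range fun t : ℝ => (w : ℂ) + t * (v : ℂ)) := by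
  set V : ℝ := ‖(v : ℂ)‖ with hV
  have hV1 : 1 ≤ V := one_le_norm hv
  obtain ⟨N, hN⟩ : ∃ N : ℕ, v.norm = N := ⟨v.norm.toNat, (Int.toNat_of_nonneg (norm_nonneg v)).symm⟩
  have hN0 : 0 < N := by
    have := norm_pos.2 hv
    omega
  have hVN : V ^ 2 = N := by
    rw [hV, ← Complex.normSq_eq_norm_sq, ← intCast_real_norm, hN]
    norm_num
  have hN1 : (1 : ℝ) ≤ N := by exact_mod_cast hN0
  set d : ℕ := ⌈D * V⌉₊ with hd
  have hd1 : D * V ≤ d := Nat.le_ceil _
  have hd0 : 0 < d := Nat.ceil_pos.2 (by positivity)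
  have hdR : (1 : ℝ) ≤ d := by exact_mod_cast hd0
  set R : ℕ := ⌈‖(w : ℂ)‖⌉₊ with hR
  have hR1 : ‖(w : ℂ)‖ ≤ R := Nat.le_ceil _
  set c : ℝ := 1 / (3 * V * (4 + 2 * N) * d) with hc
  have hc0 : 0 < c := by positivity
  have hcV : c * V ≤ 1 / 2 := by
    rw [hc, div_mul_eq_mul_div, one_mul, div_le_iff₀ (by positivity)]
    have : 1 ≤ (4 + 2 * (N : ℝ)) * d := by nlinarith
    nlinarith
  refine ⟨c, hc0, fun z hinj hprime hstep => ?_⟩
  by_contra hcon
  push Not at hcon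
  set u : ℕ → GaussianInt := fun n => (z n - w) * star v with hu
  have huC : ∀ n, ((u n : GaussianInt) : ℂ) = ((z n : ℂ) - w) * (starRingEnd ℂ) (v : ℂ) := by
    intro n
    simp only [hu]
    rw [map_mul, map_sub, toComplex_star]
  have hun : ∀ n, ‖((u n : GaussianInt) : ℂ)‖ = ‖(z n : ℂ) - w‖ * V := by
    intro n
    rw [huC, norm_mul, Complex.norm_conj]
  have him : ∀ n, |((u n).im : ℝ)| ≤ c * V * Real.sqrt (Real.log ‖((z n : GaussianInt) : ℂ)‖) := by
    intro n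
    rw [intCast_im, huC]
    refine (im_le _ _ _).trans ?_
    calc V * Metric.infDist (z n : ℂ) (Set.range fun t : ℝ => (w : ℂ) + t * (v : ℂ)) ≤
          V * (c * Real.sqrt (Real.log ‖((z n : GaussianInt) : ℂ)‖)) :=
          mul_le_mul_of_nonneg_left (hcon n) (by linarith)
      _ = _ := by ring
  have hz1 : ∀ n, 1 ≤ ‖((z n : GaussianInt) : ℂ)‖ := fun n => one_le_norm (hprime n).ne_zero
  have hzu : ∀ n, ‖((z n : GaussianInt) : ℂ)‖ ≤ R + ‖((u n : GaussianInt) : ℂ)‖ := by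
    intro n
    have h1 : ‖((z n : GaussianInt) : ℂ)‖ ≤ ‖(z n : ℂ) - w‖ + ‖(w : ℂ)‖ := by
      have := norm_add_le ((z n : ℂ) - w) (w : ℂ)
      rwa [sub_add_cancel] at this
    have h2 : ‖(z n : ℂ) - w‖ ≤ ‖((u n : GaussianInt) : ℂ)‖ := by
      rw [hun]
      exact le_mul_of_one_le_right (_root_.norm_nonneg _) hV1
    linarith
  have hnorm : ∀ n, ‖((z n : GaussianInt) : ℂ)‖ ≤ 3 * R + 2 * |((u n).re : ℝ)| := by
    intro n
    have h1 : |((u n).im : ℝ)| ≤ 1 / 2 * ‖((z n : GaussianInt) : ℂ)‖ :=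
      (him n).trans (mul_le_mul hcV (sqrt_log_le (hz1 n)) (Real.sqrt_nonneg _) (by norm_num))
    have h2 : ‖((u n : GaussianInt) : ℂ)‖ ≤ |((u n).re : ℝ)| + |((u n).im : ℝ)| := by
      have h4 := Complex.norm_le_abs_re_add_abs_im ((u n : GaussianInt) : ℂ)
      rw [← intCast_re, ← intCast_im] at h4
      exact h4
    have h3 := hzu n
    have h4 : (0 : ℝ) ≤ R := Nat.cast_nonneg _
    linarith
  have hre : ∀ n, |((u (n + 1)).re : ℤ) - (u n).re| ≤ d := by
    intro n
    have h1 := Complex.abs_re_le_norm (((u (n + 1) : GaussianInt) : ℂ) - u n)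
    rw [Complex.sub_re, ← intCast_re, ← intCast_re] at h1
    have h2 : ‖((u (n + 1) : GaussianInt) : ℂ) - u n‖ ≤ D * V := by
      rw [huC, huC, ← sub_mul, norm_mul, Complex.norm_conj, sub_sub_sub_cancel_right]
      exact mul_le_mul_of_nonneg_right (hstep n) (by linarith)
    have h3 := (h1.trans h2).trans hd1
    exact_mod_cast h3
  have hunb : ∀ B : ℤ, ∃ n, B < |(u n).re| := by
    intro B
    by_contra hB
    push Not at hB
    refine finite_of_bounded hinj (3 * R + 2 * B) fun n => ?_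
    have h0 : |((u n).re : ℝ)| ≤ B := by exact_mod_cast hB n
    push_cast
    linarith [hnorm n]
  -- the block
  set W : ℕ := (u 0).re.natAbs + 2 * N * R + 4 * N + R + 1 with hW
  have hWpos : 0 < W := by omega
  obtain ⟨M, r, hM, hdM, hWM, hM2, hr0, hrM, hblk⟩ :=
    exists_blockG d W N (w * star v).re (w * star v).im hd0 hWpos
  set K : ℕ := d * (2 * W + 1) with hK
  have hWMR : (W : ℝ) ≤ M := by exact_mod_cast hWM
  have hWR : (W : ℝ) = (u 0).re.natAbs + 2 * N * R + 4 * N + R + 1 := by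
    rw [hW]
    push_cast
    ring
  have hwin : ∀ (n : ℕ) (q : ℤ) (j : ℕ), j < d → (u n).re = r + j + M * q → (M : ℤ) ≤ |(u n).re| →
      |(u n).re| ≤ 4 * M → False := by
    intro n q j hj hx h1 h2
    have hRM : (R : ℝ) ≤ M := by
      have : (0 : ℝ) ≤ ((u 0).re.natAbs : ℝ) + 2 * N * R + 4 * N + 1 := by positivity
      linarith
    have h3 : ‖((z n : GaussianInt) : ℂ)‖ ≤ 16 * M := by
      have h4 : |((u n).re : ℝ)| ≤ 4 * M := by exact_mod_cast h2
      have h5 : (0 : ℝ) ≤ M := Nat.cast_nonneg _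
      linarith [hnorm n]
    have hK1 : (1 : ℝ) ≤ K := by
      have : 1 ≤ K := by
        rw [hK]
        exact Nat.mul_pos hd0 (by omega)
      exact_mod_cast this
    have h5 : Real.log ‖((z n : GaussianInt) : ℂ)‖ ≤ ((4 + 2 * N) * (K : ℝ)) ^ 2 :=
      log_bound hM h3 (hz1 n) (by omega) hK1
    have h10 : |((u n).im : ℝ)| ≤ c * V * ((4 + 2 * N) * K) :=
      (him n).trans (mul_le_mul_of_nonneg_left (Real.sqrt_le_iff.2 ⟨by positivity, h5⟩)
        (by positivity))
    have h11 : c * V * ((4 + 2 * N) * (K : ℝ)) ≤ W :=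
      c_bound (by linarith) (by linarith) (by linarith) (by exact_mod_cast hWpos) (by
        rw [hK]
        push_cast
        ring)
    have h12 : |(u n).im| ≤ (W : ℤ) := by exact_mod_cast h10.trans h11
    obtain ⟨L, s, hs, hL, hLp, hdiv, hmd⟩ := hblk (u n).re (u n).im q j hj h12 hx
    have hdvd1 := dvd_of_md hdiv
    have heq : (⟨(u n).re + (w * star v).re, (u n).im + (w * star v).im⟩ : GaussianInt) =
        z n * star v := by
      have h13 : z n * star v = u n + w * star v := by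
        simp only [hu]
        ring
      rw [h13]
      rfl
    rw [heq] at hdvd1
    have hdvd2 := (coprime_of_norm hLp hN hN0).dvd_of_dvd_mul_right hdvd1
    refine not_prime_of_dvd hs hL hdvd2 ?_ (hprime n)
    -- the norm of `z n` exceeds `M`
    have h14 : (M : ℝ) < ((z n).norm : ℝ) := by
      rw [intCast_real_norm, Complex.normSq_eq_norm_sq]
      have h15 : (M : ℝ) ≤ ‖(z n : ℂ) - w‖ * V := by
        rw [← hun]
        have h16 : (M : ℝ) ≤ |((u n).re : ℝ)| := by exact_mod_cast h1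
        have h17 := Complex.abs_re_le_norm ((u n : GaussianInt) : ℂ)
        rw [← intCast_re] at h17
        exact h16.trans h17
      have h16 : ‖(z n : ℂ) - w‖ ≤ ‖((z n : GaussianInt) : ℂ)‖ + R :=
        (norm_sub_le _ _).trans (by linarith)
      have h19 : (0 : ℝ) ≤ ((u 0).re.natAbs : ℝ) := Nat.cast_nonneg _
      have hR0 : (0 : ℝ) ≤ R := Nat.cast_nonneg _
      exact big_norm hVN hV1 (h15.trans (mul_le_mul_of_nonneg_right h16 (by linarith))) hR0
        (by linarith)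
    have h15 : (M : ℤ) < (z n).norm := by exact_mod_cast h14
    have h16 : (md L s : ℤ) ≤ M := by exact_mod_cast hmd
    omega
  have hu0 : |(u 0).re| < W := by
    rw [Int.abs_eq_natAbs]
    omega
  obtain ⟨n, q, j, hj, hx, h1, h2⟩ := exists_window (u := fun n => (u n).re) hre hu0 hWM hdM hr0 hrM
    hunb
  exact hwin n q j hj hx h1 h2

end Vale.Agent.Results.P015.EveryRationalLine
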