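import Vale.Agent.Lib.P015S.Main

/-!
# P015: Gaussian primes on long paths, or in infinite components, of `G_D` are very sparse
-/

namespace Vale.Agent.Results.P015.SparseLongPaths

open Vale.Agent.P015S

theorem result (D : ℝ) : ∃ ε : ℝ, 0 < ε ∧ ∃ X₀ : ℕ, ∀ X : ℕ, X₀ ≤ X →
    (({z ∈ ball X | ∃ (w : {z : GaussianInt // Prime z}) (p : (moatGraph D).Walk z w), p.IsPath ∧
      Real.log X ^ ε ≤ p.length}.ncard : ℝ) ≤ (X : ℝ) ^ 2 * Real.exp (-(Real.log X ^ ε))) ∧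
    ({z ∈ ball X | ((moatGraph D).connectedComponentMk z).supp.Infinite}.ncard : ℝ) ≤
      (X : ℝ) ^ 2 * Real.exp (-(Real.log X ^ ε)) :=
  main D

end Vale.Agent.Results.P015.SparseLongPaths
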