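import Mathlib
import Vale.Agent.Lib.P015.Blk

/-!
P015: an infinite walk on Gaussian primes with bounded steps leaves the neighbourhood
`|Im z| ≤ c √(log |z|)` of the real axis.
-/

namespace Vale.Agent.Results.P015.SqrtLogNeighbourhood

open Vale.Agent.P015 GaussianInt

/-- the walk stays close to the real axis, so its modulus is controlled by the real part -/
theorem norm_le {c : ℝ} (hc1 : c ≤ 1 / 2) {z : GaussianInt}
    (hz : |(z.im : ℝ)| ≤ c * Real.sqrt (Real.log ‖(z : ℂ)‖)) (h1 : 1 ≤ ‖(z : ℂ)‖) :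
    ‖(z : ℂ)‖ ≤ 2 * |(z.re : ℝ)| := by
  set t := ‖(z : ℂ)‖ with ht
  have h2 : Real.sqrt (Real.log t) ≤ t := by
    rw [Real.sqrt_le_left (by linarith)]
    have := Real.log_le_sub_one_of_pos (show 0 < t by linarith)
    nlinarith
  have h3 : t ≤ |(z.re : ℝ)| + |(z.im : ℝ)| := by
    have h4 := Complex.norm_le_abs_re_add_abs_im (z : ℂ)
    rw [← intCast_re, ← intCast_im] at h4
    exact h4
  have h5 : c * Real.sqrt (Real.log t) ≤ 1 / 2 * t :=
    mul_le_mul hc1 h2 (Real.sqrt_nonneg _) (by norm_num)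
  linarith

theorem one_le_norm {z : GaussianInt} (hz : Prime z) : 1 ≤ ‖(z : ℂ)‖ := by
  have h1 : (1 : ℤ) ≤ z.norm := by
    have := norm_pos.2 hz.ne_zero
    omega
  have h2 : (1 : ℝ) ≤ Complex.normSq (z : ℂ) := by
    rw [← intCast_real_norm]
    exact_mod_cast h1
  rw [Complex.normSq_eq_norm_sq] at h2
  nlinarith [norm_nonneg (z : ℂ)]

/-- crossing a window -/
theorem crossing {u : ℕ → ℤ} {d : ℕ} (hstep : ∀ n, u (n + 1) ≤ u n + d) {a : ℤ} (h0 : u 0 < a)
    {n : ℕ} (hn : a ≤ u n) : ∃ k, a ≤ u k ∧ u k < a + d := by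
  classical
  have hex : ∃ k, a ≤ u k := ⟨n, hn⟩
  have h1 := Nat.find_spec hex
  have h2 : Nat.find hex ≠ 0 := by
    intro h
    rw [h] at h1
    omega
  obtain ⟨k, hk⟩ := Nat.exists_eq_succ_of_ne_zero h2
  have h3 : ¬ a ≤ u k := Nat.find_min hex (by omega)
  have h4 := hstep k
  refine ⟨Nat.find hex, h1, ?_⟩
  rw [hk]
  rw [Nat.succ_eq_add_one]
  omega

/-- For every step bound `D` and every infinite path of `G_D` (an injective sequence of Gaussian
primes whose successive distances are at most `D`) the inequality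
`|Im z| ≤ √(log |z|) / (12 (D + 2))` fails for some point `z` of the path. -/
theorem result (D : ℝ) (hD : 0 < D) (z : ℕ → GaussianInt) (hinj : Function.Injective z)
    (hprime : ∀ n, Prime (z n)) (hstep : ∀ n, ‖((z (n + 1) : GaussianInt) : ℂ) - z n‖ ≤ D) :
    ∃ n, Real.sqrt (Real.log ‖((z n : GaussianInt) : ℂ)‖) / (12 * (D + 2)) < |((z n).im : ℝ)| := by
  by_contra hcon
  push Not at hcon
  set d : ℕ := ⌈D⌉₊ with hd
  have hd1 : D ≤ d := Nat.le_ceil D
  have hd2 : (d : ℝ) < D + 1 := Nat.ceil_lt_add_one hD.le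
  have hd0 : 0 < d := Nat.ceil_pos.2 hD
  set c : ℝ := 1 / (12 * (D + 2)) with hc
  have hc0 : 0 ≤ c := by positivity
  have hc1 : c ≤ 1 / 2 := by
    rw [hc]
    apply one_div_le_one_div_of_le (by norm_num)
    linarith
  have him : ∀ n, |((z n).im : ℝ)| ≤ c * Real.sqrt (Real.log ‖((z n : GaussianInt) : ℂ)‖) := by
    intro n
    have h := hcon n
    rw [hc]
    rw [div_eq_mul_one_div, mul_comm] at h
    exact h
  have hnorm : ∀ n, ‖((z n : GaussianInt) : ℂ)‖ ≤ 2 * |((z n).re : ℝ)| := fun n =>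
    norm_le hc1 (him n) (one_le_norm (hprime n))
  have hre : ∀ n, |((z (n + 1)).re : ℤ) - (z n).re| ≤ d := by
    intro n
    have h1 := Complex.abs_re_le_norm (((z (n + 1) : GaussianInt) : ℂ) - z n)
    rw [Complex.sub_re, ← intCast_re, ← intCast_re] at h1
    have h2 := (h1.trans (hstep n)).trans hd1
    exact_mod_cast h2
  -- the real parts are unbounded
  have hunb : ∀ B : ℤ, ∃ n, B < |(z n).re| := by
    intro B
    by_contra hB
    push Not at hB
    have hfin : (Set.range z).Finite := by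
      have h1 : Set.range z ⊆ (fun p : ℤ × ℤ => (⟨p.1, p.2⟩ : GaussianInt)) ''
          ((Set.Icc (-B) B) ×ˢ (Set.Icc (-(2 * B)) (2 * B))) := by
        rintro _ ⟨n, rfl⟩
        refine ⟨((z n).re, (z n).im), ⟨?_, ?_⟩, rfl⟩
        · exact abs_le.1 (hB n)
        · have h2 : |((z n).im : ℝ)| ≤ 2 * |((z n).re : ℝ)| := by
            have h3 := Complex.abs_im_le_norm ((z n : GaussianInt) : ℂ)
            rw [← intCast_im] at h3
            exact h3.trans (hnorm n)
          have h3 : |(z n).im| ≤ 2 * |(z n).re| := by exact_mod_cast h2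
          have h4 := hB n
          exact abs_le.1 (by linarith)
      exact (((Set.finite_Icc _ _).prod (Set.finite_Icc _ _)).image _).subset h1
    exact Set.infinite_range_of_injective hinj hfin
  -- the block
  set W : ℕ := (z 0).re.natAbs + 1 with hW
  have hWpos : 0 < W := by omega
  obtain ⟨M, r, hM, hdM, hWM, hM2, hr0, hrM, hblk⟩ := exists_block d W hd0 hWpos
  set K : ℕ := d * (2 * W + 1) with hK
  -- a point in the window contradicts the block
  have hwin : ∀ (n : ℕ) (q : ℤ) (j : ℕ), j < d → (z n).re = r + j + M * q → (M : ℤ) ≤ |(z n).re| →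
      |(z n).re| ≤ 4 * M → False := by
    intro n q j hj hx h1 h2
    refine hblk (z n).re (z n).im q j hj ?_ hx h1 (hprime n)
    have h3 : ‖((z n : GaussianInt) : ℂ)‖ ≤ 8 * M := by
      have h4 : |((z n).re : ℝ)| ≤ 4 * M := by exact_mod_cast h2
      linarith [hnorm n]
    have h5 : Real.log ‖((z n : GaussianInt) : ℂ)‖ ≤ (4 * (K : ℝ)) ^ 2 := by
      have h6 : Real.log ‖((z n : GaussianInt) : ℂ)‖ ≤ Real.log (8 * M) :=
        Real.log_le_log (by linarith [one_le_norm (hprime n)]) h3
      have h7 : Real.log (8 * M) ≤ Real.log (2 ^ (11 * K ^ 2 + 3)) := by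
        apply Real.log_le_log (by positivity)
        have h8 : (M : ℝ) ≤ 2 ^ (11 * K ^ 2) := by exact_mod_cast hM
        rw [pow_add]
        linarith
      rw [Real.log_pow] at h7
      have h9 := Real.log_two_lt_d9
      have hK1 : (1 : ℝ) ≤ K := by
        have : 1 ≤ K := by
          rw [hK]
          exact Nat.mul_pos hd0 (by omega)
        exact_mod_cast this
      push_cast at h7
      nlinarith
    have h10 : |((z n).im : ℝ)| ≤ c * (4 * K) :=
      (him n).trans (mul_le_mul_of_nonneg_left (Real.sqrt_le_iff.2 ⟨by positivity, h5⟩) hc0)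
    have h11 : c * (4 * (K : ℝ)) ≤ W := by
      rw [hK, hc]
      push_cast
      have hW1 : (1 : ℝ) ≤ W := by exact_mod_cast hWpos
      rw [div_mul_eq_mul_div, one_mul, div_le_iff₀ (by positivity)]
      have h12 : (d : ℝ) * (2 * W + 1) ≤ (D + 2) * (3 * W) := by
        apply mul_le_mul (by linarith) (by linarith) (by positivity) (by linarith)
      nlinarith
    exact_mod_cast h10.trans h11
  have hz0 : |(z 0).re| < W := by
    rw [hW]
    push_cast
    exact lt_add_one _
  rw [abs_lt] at hz0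
  obtain ⟨n, hn⟩ := hunb (8 * M)
  rcases lt_or_ge (z n).re 0 with hneg | hpos
  · rw [abs_of_neg hneg] at hn
    obtain ⟨k, hk1, hk2⟩ := crossing (u := fun n => -(z n).re) (d := d)
      (fun n => by
        have := (abs_le.1 (hre n)).1
        omega) (a := 3 * M - r - d + 1) (by omega) (n := n) (by omega)
    obtain ⟨j, hj⟩ : ∃ j : ℕ, (j : ℤ) = (z k).re - r + 3 * M :=
      ⟨((z k).re - r + 3 * M).toNat, Int.toNat_of_nonneg (by omega)⟩
    refine hwin k (-3) j (by omega) (by rw [hj]; ring) ?_ ?_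
    · rw [abs_of_neg (by omega)]
      omega
    · rw [abs_of_neg (by omega)]
      omega
  · rw [abs_of_nonneg hpos] at hn
    obtain ⟨k, hk1, hk2⟩ := crossing (u := fun n => (z n).re) (d := d)
      (fun n => by
        have := (abs_le.1 (hre n)).2
        omega) (a := r + M) (by omega) (n := n) (by omega)
    obtain ⟨j, hj⟩ : ∃ j : ℕ, (j : ℤ) = (z k).re - r - M :=
      ⟨((z k).re - r - M).toNat, Int.toNat_of_nonneg (by omega)⟩
    refine hwin k 1 j (by omega) (by rw [hj]; ring) ?_ ?_
    · rw [abs_of_nonneg (by omega)]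
      omega
    · rw [abs_of_nonneg (by omega)]
      omega

end Vale.Agent.Results.P015.SqrtLogNeighbourhood
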